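/-
  Thorp skeleton (row 155, S0222): Hilbert–Schmidt norm of real matrices and the Cauchy–Schwarz
  tower `‖B⁴‖²_HS ≤ Tr (Bᵀ B)⁴`.
-/
import Mathlib

set_option autoImplicit false

namespace Crest.Agent.Lib.Thorp

open Matrix

variable {ι : Type*} [Fintype ι] [DecidableEq ι]

set_option linter.unusedSectionVars false

/-- Hilbert–Schmidt norm squared. -/
noncomputable def hs (A : Matrix ι ι ℝ) : ℝ := (Aᵀ * A).trace

lemma hs_eq_sum (A : Matrix ι ι ℝ) : hs A = ∑ i, ∑ j, (A i j) ^ 2 := by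
  unfold hs
  simp only [Matrix.trace, Matrix.diag, Matrix.mul_apply, Matrix.transpose_apply]
  rw [Finset.sum_comm]
  refine Finset.sum_congr rfl fun i _ => Finset.sum_congr rfl fun j _ => by ring

lemma hs_nonneg (A : Matrix ι ι ℝ) : 0 ≤ hs A := by
  rw [hs_eq_sum]; positivity

lemma hs_transpose (A : Matrix ι ι ℝ) : hs Aᵀ = hs A := by
  unfold hs
  rw [Matrix.transpose_transpose, Matrix.trace_mul_comm]

/-- Cauchy–Schwarz for the trace form. -/
lemma trace_transpose_mul_le (A B : Matrix ι ι ℝ) :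
    ((Aᵀ * B).trace) ^ 2 ≤ hs A * hs B := by
  have h : (Aᵀ * B).trace = ∑ p : ι × ι, A p.1 p.2 * B p.1 p.2 := by
    simp only [Matrix.trace, Matrix.diag, Matrix.mul_apply, Matrix.transpose_apply]
    rw [Fintype.sum_prod_type, Finset.sum_comm]
  have h1 : hs A = ∑ p : ι × ι, (A p.1 p.2) ^ 2 := by
    rw [hs_eq_sum, Fintype.sum_prod_type]
  have h2 : hs B = ∑ p : ι × ι, (B p.1 p.2) ^ 2 := by
    rw [hs_eq_sum, Fintype.sum_prod_type]
  rw [h, h1, h2]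
  exact Finset.sum_mul_sq_le_sq_mul_sq _ _ _

/-- `Tr (Aᵀ B) ≤ √… √…` in the form used below: if `hs A = hs B = r` then `Tr (Aᵀ B) ≤ r`. -/
lemma trace_transpose_mul_le_of_eq (A B : Matrix ι ι ℝ) (h : hs A = hs B) :
    (Aᵀ * B).trace ≤ hs A := by
  have h1 := trace_transpose_mul_le A B
  rw [← h] at h1
  have h2 := hs_nonneg A
  have h3 : ((Aᵀ * B).trace) ^ 2 ≤ (hs A) ^ 2 := by rw [sq (hs A)]; exact h1
  exact le_of_abs_le (abs_le_of_sq_le_sq h3 h2)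

/-- `Tr (M M) ≤ hs M`. -/
lemma trace_mul_self_le_hs (M : Matrix ι ι ℝ) : (M * M).trace ≤ hs M := by
  have := trace_transpose_mul_le_of_eq Mᵀ M (hs_transpose M)
  rw [Matrix.transpose_transpose] at this
  rwa [hs_transpose] at this

/-- `‖C D‖²_HS ≤ ‖Cᵀ C‖_HS ‖D Dᵀ‖_HS`, the square-free form with `C = D`:
`hs (C * C) ≤ hs (Cᵀ * C)`. -/
lemma hs_mul_self_le (C : Matrix ι ι ℝ) : hs (C * C) ≤ hs (Cᵀ * C) := by
  have e1 : hs (C * C) = (((C * Cᵀ))ᵀ * (Cᵀ * C)).trace := by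
    unfold hs
    rw [Matrix.transpose_mul, Matrix.transpose_mul, Matrix.transpose_transpose]
    -- Cᵀ Cᵀ C C = C Cᵀ Cᵀ C up to cyclicity
    calc (Cᵀ * Cᵀ * (C * C)).trace = ((Cᵀ * Cᵀ * C) * C).trace := by simp only [Matrix.mul_assoc]
      _ = (C * (Cᵀ * Cᵀ * C)).trace := by rw [Matrix.trace_mul_comm]
      _ = (C * Cᵀ * (Cᵀ * C)).trace := by simp only [Matrix.mul_assoc]
  have e2 : hs (C * Cᵀ) = hs (Cᵀ * C) := by
    unfold hs
    simp only [Matrix.transpose_mul, Matrix.transpose_transpose]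
    calc (C * Cᵀ * (C * Cᵀ)).trace = (C * (Cᵀ * (C * Cᵀ))).trace := by rw [Matrix.mul_assoc]
      _ = ((Cᵀ * (C * Cᵀ)) * C).trace := by rw [Matrix.trace_mul_comm]
      _ = (Cᵀ * C * (Cᵀ * C)).trace := by simp only [Matrix.mul_assoc]
  rw [e1]
  have := trace_transpose_mul_le_of_eq (C * Cᵀ) (Cᵀ * C) e2
  rwa [e2] at this

/-- Trace of the fourth power of `Bᵀ B` equals that of `B Bᵀ`. -/
lemma trace_pow_comm (B : Matrix ι ι ℝ) (p : ℕ) (hp : 0 < p) :
    (((B * Bᵀ)) ^ p).trace = ((Bᵀ * B) ^ p).trace := by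
  obtain ⟨q, rfl⟩ : ∃ q, p = q + 1 := ⟨p - 1, by omega⟩
  have : ∀ q : ℕ, (B * Bᵀ) ^ (q + 1) = B * ((Bᵀ * B) ^ q * Bᵀ) := by
    intro q
    induction q with
    | zero => simp
    | succ q ih =>
      rw [pow_succ, ih, pow_succ]
      simp only [Matrix.mul_assoc]
  rw [this, Matrix.trace_mul_comm, pow_succ]
  simp only [Matrix.mul_assoc]

/-- For symmetric `X, Y` with `Tr X⁴ = Tr Y⁴`: `hs (Y X) ≤ Tr Y⁴`. -/
lemma hs_sym_mul_le (X Y : Matrix ι ι ℝ) (hXt : Xᵀ = X) (hYt : Yᵀ = Y)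
    (e5 : (X ^ 4).trace = (Y ^ 4).trace) : hs (Y * X) ≤ (Y ^ 4).trace := by
  have e2 : hs (Y * X) = ((X * X)ᵀ * (Y * Y)).trace := by
    unfold hs
    rw [Matrix.transpose_mul, Matrix.transpose_mul, hXt, hYt]
    calc (X * Y * (Y * X)).trace = (X * (Y * Y * X)).trace := by simp only [Matrix.mul_assoc]
      _ = ((Y * Y * X) * X).trace := by rw [Matrix.trace_mul_comm]
      _ = (X * X * (Y * Y)).trace := by
        rw [Matrix.mul_assoc, Matrix.trace_mul_comm]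
  have e3 : hs (X * X) = (X ^ 4).trace := by
    unfold hs
    rw [Matrix.transpose_mul, hXt]
    congr 1
    simp only [pow_succ, pow_zero, Matrix.one_mul, Matrix.mul_assoc]
  have e4 : hs (Y * Y) = (Y ^ 4).trace := by
    unfold hs
    rw [Matrix.transpose_mul, hYt]
    congr 1
    simp only [pow_succ, pow_zero, Matrix.one_mul, Matrix.mul_assoc]
  rw [e2]
  have h6 := trace_transpose_mul_le_of_eq (X * X) (Y * Y) (by rw [e3, e4, e5])
  rw [e3, e5] at h6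
  exact h6

/-- The Cauchy–Schwarz tower: `‖B⁴‖²_HS ≤ Tr (Bᵀ B)⁴`. -/
theorem hs_pow_four_le (B : Matrix ι ι ℝ) : hs (B ^ 4) ≤ ((Bᵀ * B) ^ 4).trace := by
  set C := B * B with hC
  have h4 : B ^ 4 = C * C := by
    rw [hC]; simp only [pow_succ, pow_zero, Matrix.one_mul, Matrix.mul_assoc]
  rw [h4]
  refine (hs_mul_self_le C).trans ?_
  -- hs (Cᵀ C) = Tr (Y X Y X), Y = Bᵀ B, X = B Bᵀ
  set Y := Bᵀ * B with hY
  set X := B * Bᵀ with hX
  have e1 : hs (Cᵀ * C) = ((Y * X) * (Y * X)).trace := by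
    unfold hs
    rw [hC, hX, hY]
    simp only [Matrix.transpose_mul, Matrix.transpose_transpose, Matrix.mul_assoc]
    -- Bᵀ Bᵀ B B Bᵀ Bᵀ B B  vs  Bᵀ B B Bᵀ Bᵀ B B Bᵀ
    rw [Matrix.trace_mul_comm]
    simp only [Matrix.mul_assoc]
  rw [e1]
  refine (trace_mul_self_le_hs (Y * X)).trans ?_
  have hXt : Xᵀ = X := by rw [hX]; simp [Matrix.transpose_mul]
  have hYt : Yᵀ = Y := by rw [hY]; simp [Matrix.transpose_mul]
  have e5 : (X ^ 4).trace = (Y ^ 4).trace := by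
    rw [hX, hY]; exact trace_pow_comm B 4 (by norm_num)
  exact hs_sym_mul_le X Y hXt hYt e5

end Crest.Agent.Lib.Thorp
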