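/-
  Thorp (row 155, S0222): abstract assembly on an orthogonal decomposition.
  If `π k` are symmetric idempotents summing to `1`, each commuting with `T`, and `‖T π_k x‖² ≤ a_k ‖π_k x‖²`,
  then `hs (T ^ (K + 4)) ≤ ∑ k, a_k ^ K * Tr ((Tᵀ T)⁴ π_k)`.
-/
import Crest.Agent.Lib.Thorp.HS

set_option autoImplicit false
set_option linter.unusedSectionVars false

namespace Crest.Agent.Lib.Thorp

open Matrix

variable {ι : Type*} [Fintype ι] [DecidableEq ι]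

/-- `hs` is the sum over columns of the squared norm of `M *ᵥ e_j`. -/
lemma hs_eq_sum_col (M : Matrix ι ι ℝ) :
    hs M = ∑ j, (M *ᵥ (Pi.single j 1)) ⬝ᵥ (M *ᵥ (Pi.single j 1)) := by
  rw [hs_eq_sum, Finset.sum_comm]
  refine Finset.sum_congr rfl fun j _ => ?_
  simp only [dotProduct, Matrix.mulVec_single_one, Matrix.col_apply, sq]

/-- One step of the operator bound on the range of `π`. -/
lemma hs_mul_le_of_op (T π B : Matrix ι ι ℝ) (a : ℝ)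
    (hB : π * B = B)
    (hop : ∀ x : ι → ℝ, ((T * π) *ᵥ x) ⬝ᵥ ((T * π) *ᵥ x) ≤ a * ((π *ᵥ x) ⬝ᵥ (π *ᵥ x))) :
    hs (T * B) ≤ a * hs B := by
  rw [hs_eq_sum_col, hs_eq_sum_col, Finset.mul_sum]
  refine Finset.sum_le_sum fun j _ => ?_
  have h := hop (B *ᵥ (Pi.single j 1))
  rw [Matrix.mulVec_mulVec, Matrix.mulVec_mulVec, Matrix.mul_assoc, hB] at h
  exact h

lemma hs_pow_mul_le_of_op (T π B : Matrix ι ι ℝ) (a : ℝ) (ha : 0 ≤ a)
    (hB : π * B = B) (hcomm : T * π = π * T)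
    (hop : ∀ x : ι → ℝ, ((T * π) *ᵥ x) ⬝ᵥ ((T * π) *ᵥ x) ≤ a * ((π *ᵥ x) ⬝ᵥ (π *ᵥ x)))
    (r : ℕ) : hs (T ^ r * B) ≤ a ^ r * hs B := by
  have hcp : ∀ r : ℕ, π * (T ^ r * B) = T ^ r * B := by
    intro r
    induction r with
    | zero => simpa using hB
    | succ r ih =>
      rw [pow_succ', Matrix.mul_assoc, ← Matrix.mul_assoc π, ← hcomm, Matrix.mul_assoc T, ih]
  induction r with
  | zero => simp
  | succ r ih =>
    rw [pow_succ', Matrix.mul_assoc]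
    refine (hs_mul_le_of_op T π _ a (hcp r) hop).trans ?_
    rw [pow_succ']
    calc a * hs (T ^ r * B) ≤ a * (a ^ r * hs B) := mul_le_mul_of_nonneg_left ih ha
      _ = a * a ^ r * hs B := by ring

/-- Level form. -/
theorem hs_pow_mul_proj_le (T π : Matrix ι ι ℝ) (a : ℝ) (ha : 0 ≤ a)
    (hsym : πᵀ = π) (hidem : π * π = π) (hcomm : T * π = π * T)
    (hop : ∀ x : ι → ℝ, ((T * π) *ᵥ x) ⬝ᵥ ((T * π) *ᵥ x) ≤ a * ((π *ᵥ x) ⬝ᵥ (π *ᵥ x)))
    (K : ℕ) :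
    hs (T ^ (K + 4) * π) ≤ a ^ K * (((Tᵀ * T) ^ 4) * π).trace := by
  have hcommt : Tᵀ * π = π * Tᵀ := by
    have := congrArg Matrix.transpose hcomm
    simpa [Matrix.transpose_mul, hsym, eq_comm] using this
  have hcp : ∀ r : ℕ, T ^ r * π = π * T ^ r := by
    intro r
    induction r with
    | zero => simp
    | succ r ih =>
      rw [pow_succ, Matrix.mul_assoc, hcomm, ← Matrix.mul_assoc, ih, Matrix.mul_assoc]
  -- `B₀ = T π`
  obtain ⟨B₀, hB₀⟩ : ∃ B : Matrix ι ι ℝ, B = T * π := ⟨_, rfl⟩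
  have hB₀pow : ∀ r : ℕ, B₀ ^ (r + 1) = T ^ (r + 1) * π := by
    intro r
    induction r with
    | zero => simp [hB₀]
    | succ r ih =>
      rw [pow_succ, ih, hB₀]
      rw [Matrix.mul_assoc, ← Matrix.mul_assoc π, ← hcomm, Matrix.mul_assoc T, hidem,
        ← Matrix.mul_assoc, ← pow_succ]
  have hW : B₀ᵀ * B₀ = (Tᵀ * T) * π := by
    rw [hB₀, Matrix.transpose_mul, hsym]
    calc π * Tᵀ * (T * π) = (π * Tᵀ) * T * π := by simp only [Matrix.mul_assoc]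
      _ = (Tᵀ * π) * T * π := by rw [hcommt]
      _ = Tᵀ * (π * T) * π := by simp only [Matrix.mul_assoc]
      _ = Tᵀ * (T * π) * π := by rw [hcomm]
      _ = Tᵀ * T * (π * π) := by simp only [Matrix.mul_assoc]
      _ = Tᵀ * T * π := by rw [hidem]
  have hWc : (Tᵀ * T) * π = π * (Tᵀ * T) := by
    rw [Matrix.mul_assoc, hcomm, ← Matrix.mul_assoc, hcommt, Matrix.mul_assoc]
  have hW4 : ((Tᵀ * T) * π) ^ 4 = (Tᵀ * T) ^ 4 * π := by
    have : ∀ r : ℕ, ((Tᵀ * T) * π) ^ (r + 1) = (Tᵀ * T) ^ (r + 1) * π := by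
      intro r
      induction r with
      | zero => simp
      | succ r ih =>
        rw [pow_succ, ih, Matrix.mul_assoc, ← Matrix.mul_assoc π, ← hWc, Matrix.mul_assoc,
          hidem, ← Matrix.mul_assoc, ← pow_succ]
    exact this 3
  have h4 : hs (T ^ 4 * π) ≤ (((Tᵀ * T) ^ 4) * π).trace := by
    have := hs_pow_four_le B₀
    rwa [hB₀pow 3, hW, hW4] at this
  have hB : π * (T ^ 4 * π) = T ^ 4 * π := by
    rw [← Matrix.mul_assoc, ← hcp, Matrix.mul_assoc, hidem]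
  have := hs_pow_mul_le_of_op T π (T ^ 4 * π) a ha hB hcomm hop K
  rw [← Matrix.mul_assoc, ← pow_add] at this
  exact this.trans (mul_le_mul_of_nonneg_left h4 (pow_nonneg ha K))

/-- Decomposition of `hs` along an orthogonal resolution of the identity. -/
theorem hs_eq_sum_proj {κ : Type*} (s : Finset κ) (π : κ → Matrix ι ι ℝ)
    (hsym : ∀ k ∈ s, (π k)ᵀ = π k) (hidem : ∀ k ∈ s, π k * π k = π k)
    (hsum : ∑ k ∈ s, π k = 1) (A : Matrix ι ι ℝ) :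
    hs A = ∑ k ∈ s, hs (A * π k) := by
  have h1 : hs A = ∑ k ∈ s, ((Aᵀ * A) * π k).trace := by
    rw [← Matrix.trace_sum, ← Matrix.mul_sum, hsum, Matrix.mul_one]
    rfl
  rw [h1]
  refine Finset.sum_congr rfl fun k hk => ?_
  unfold hs
  rw [Matrix.transpose_mul, hsym k hk]
  calc ((Aᵀ * A) * π k).trace = ((Aᵀ * A) * (π k * π k)).trace := by rw [hidem k hk]
    _ = (((Aᵀ * A) * π k) * π k).trace := by simp only [Matrix.mul_assoc]
    _ = (π k * ((Aᵀ * A) * π k)).trace := by rw [Matrix.trace_mul_comm]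
    _ = (π k * Aᵀ * (A * π k)).trace := by simp only [Matrix.mul_assoc]

/-- **Abstract assembly.** -/
theorem hs_pow_le_sum {κ : Type*} (s : Finset κ) (T : Matrix ι ι ℝ) (π : κ → Matrix ι ι ℝ) (a : κ → ℝ)
    (ha : ∀ k ∈ s, 0 ≤ a k)
    (hsym : ∀ k ∈ s, (π k)ᵀ = π k) (hidem : ∀ k ∈ s, π k * π k = π k)
    (hsum : ∑ k ∈ s, π k = 1) (hcomm : ∀ k ∈ s, T * π k = π k * T)
    (hop : ∀ k ∈ s, ∀ x : ι → ℝ,
      ((T * π k) *ᵥ x) ⬝ᵥ ((T * π k) *ᵥ x) ≤ a k * ((π k *ᵥ x) ⬝ᵥ (π k *ᵥ x)))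
    (K : ℕ) :
    hs (T ^ (K + 4)) ≤ ∑ k ∈ s, a k ^ K * (((Tᵀ * T) ^ 4) * π k).trace := by
  rw [hs_eq_sum_proj s π hsym hidem hsum]
  exact Finset.sum_le_sum fun k hk =>
    hs_pow_mul_proj_le T (π k) (a k) (ha k hk) (hsym k hk) (hidem k hk) (hcomm k hk) (hop k hk) K

end Crest.Agent.Lib.Thorp
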