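/-
  Thorp (row 155, S0222): the assembly numerics, i.e. the hypothesis `hlim` of
  `S0222_of_level_op`, from the bounds on `a` (Theorem A + low recursion) and on `b` (band).
  Pure real analysis: generic in all the constants.
-/
import Mathlib

set_option autoImplicit false

namespace Crest.Agent.Lib.Thorp.Hlim

open Finset Filter Topology

lemma sq_le_two_mul_two_pow (j : ℕ) : (j : ℝ) ^ 2 ≤ 2 * 2 ^ j := by
  induction j with
  | zero => norm_num
  | succ j ih =>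
    have h : ((j + 1 : ℕ) : ℝ) ≤ 2 ^ j := by
      have := Nat.lt_two_pow_self (n := j)
      exact_mod_cast this
    push_cast at h ⊢
    rw [pow_succ (2 : ℝ) j]
    nlinarith [pow_pos (two_pos : (0 : ℝ) < 2) j]

/-- `(j/n)^j ≤ 8/n²` for `2 ≤ j ≤ n/2`. -/
lemma pow_ratio_le (n : ℝ) (hn : 0 < n) (j : ℕ) (hj : 2 ≤ j) (hx : (j : ℝ) / n ≤ 1 / 2) :
    ((j : ℝ) / n) ^ j ≤ 8 / n ^ 2 := by
  obtain ⟨i, rfl⟩ : ∃ i, j = i + 2 := ⟨j - 2, by omega⟩
  have h0 : 0 ≤ ((i + 2 : ℕ) : ℝ) / n := by positivity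
  have h1 : (((i + 2 : ℕ) : ℝ) / n) ^ i ≤ (1 / 2) ^ i := pow_le_pow_left₀ h0 hx i
  have h2 := sq_le_two_mul_two_pow (i + 2)
  have h3 : (((i + 2 : ℕ) : ℝ) / n) ^ (i + 2)
      = (((i + 2 : ℕ) : ℝ) / n) ^ i * ((((i + 2 : ℕ) : ℝ)) ^ 2 / n ^ 2) := by
    rw [pow_add, div_pow ((i + 2 : ℕ) : ℝ) n 2]
  rw [h3]
  have h4 : ((((i + 2 : ℕ) : ℝ)) ^ 2 / n ^ 2) ≤ (2 * 2 ^ (i + 2)) / n ^ 2 :=
    div_le_div_of_nonneg_right h2 (by positivity)
  calc (((i + 2 : ℕ) : ℝ) / n) ^ i * ((((i + 2 : ℕ) : ℝ)) ^ 2 / n ^ 2)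
      ≤ (1 / 2) ^ i * ((2 * 2 ^ (i + 2)) / n ^ 2) :=
        mul_le_mul h1 h4 (by positivity) (by positivity)
    _ = 8 / n ^ 2 := by
        have : ((1 : ℝ) / 2) ^ i * 2 ^ i = 1 := by
          rw [← mul_pow]; norm_num
        have hn2 : n ^ 2 ≠ 0 := by positivity
        rw [pow_add]
        calc ((1 : ℝ) / 2) ^ i * (2 * (2 ^ i * 2 ^ 2) / n ^ 2)
            = (((1 : ℝ) / 2) ^ i * 2 ^ i) * (8 / n ^ 2) := by ring
          _ = 8 / n ^ 2 := by rw [this, one_mul]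

/-- The limit of the final bound. -/
lemma tendsto_bound (ε : ℝ) (hε : 0 < ε) :
    Tendsto (fun D : ℕ => 8 / ((2 : ℝ) ^ (D + 1)) + (2 : ℝ) ^ (D + 1) * Real.exp (-(ε * (2 : ℝ) ^ (D + 1))))
      atTop (𝓝 0) := by
  have hn : Tendsto (fun D : ℕ => (2 : ℝ) ^ (D + 1)) atTop atTop :=
    (tendsto_pow_atTop_atTop_of_one_lt (by norm_num : (1 : ℝ) < 2)).comp (tendsto_add_atTop_nat 1)
  have h1 : Tendsto (fun D : ℕ => 8 / ((2 : ℝ) ^ (D + 1))) atTop (𝓝 0) :=
    tendsto_const_nhds.div_atTop hn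
  have h2 : Tendsto (fun D : ℕ => (2 : ℝ) ^ (D + 1) * Real.exp (-(ε * (2 : ℝ) ^ (D + 1)))) atTop (𝓝 0) := by
    have h3 := Real.tendsto_pow_mul_exp_neg_atTop_nhds_zero 1
    have h4 : Tendsto (fun D : ℕ => ε * (2 : ℝ) ^ (D + 1)) atTop atTop :=
      hn.const_mul_atTop hε
    have h5 := (h3.comp h4).const_mul ε⁻¹
    simp only [mul_zero] at h5
    refine h5.congr fun D => ?_
    simp only [Function.comp, pow_one]
    field_simp
  simpa using h1.add h2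

section Main

variable (cA c κ C A L LC γ : ℝ) (p : ℕ)

/-- The low regime. -/
lemma term_low (hκ0 : 0 ≤ κ) (hκ1 : κ ≤ 1) (hC : 0 < C) (hLC : Real.log C ≤ LC) (hc : 0 ≤ c)
    (hN2 : 1596 * c * LC + A ≤ (1596 * c - p - 1) * L) (hβ : (p : ℝ) + 1 ≤ 1596 * c)
    (n : ℝ) (hn : 0 < n) (j : ℕ) (hj : 0 < j) (a b : ℝ) (ha0 : 0 ≤ a)
    (ha : a ≤ κ * (C * j / n) ^ (c * j))
    (hb : b ≤ (n / j) ^ (p * j) * Real.exp (A * j))
    (hx : Real.exp (-L) > (j : ℝ) / n) :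
    a ^ 1596 * b ≤ ((j : ℝ) / n) ^ j := by
  have hj' : (0 : ℝ) < j := by exact_mod_cast hj
  set x : ℝ := (j : ℝ) / n with hxdef
  have hx0 : 0 < x := by positivity
  set ℓ : ℝ := -Real.log x with hℓ
  have hℓL : L ≤ ℓ := by
    have : Real.log x < -L := by
      rw [Real.log_lt_iff_lt_exp hx0]
      exact hx
    rw [hℓ]; linarith
  have hxe : x = Real.exp (-ℓ) := by rw [hℓ, neg_neg, Real.exp_log hx0]
  have hCx : C * j / n = C * x := by rw [hxdef]; ring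
  have hnj : n / j = Real.exp ℓ := by
    have : n / j = x⁻¹ := by rw [hxdef, inv_div]
    rw [this, hxe, Real.exp_neg, inv_inv]
  have hy : (C * j / n) ^ (c * j) = Real.exp ((Real.log C - ℓ) * (c * j)) := by
    rw [hCx, Real.rpow_def_of_pos (by positivity), Real.log_mul hC.ne' hx0.ne', hℓ]
    congr 2
    ring
  have ha1 : a ≤ Real.exp ((Real.log C - ℓ) * (c * j)) := by
    rw [hy] at ha
    have h := Real.exp_pos ((Real.log C - ℓ) * (c * j))
    nlinarith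
  have ha2 : a ^ 1596 ≤ Real.exp (1596 * ((Real.log C - ℓ) * (c * j))) := by
    have := pow_le_pow_left₀ ha0 ha1 1596
    rwa [← Real.exp_nat_mul] at this
  have hb1 : b ≤ Real.exp (ℓ * (p * j) + A * j) := by
    rw [hnj, ← Real.exp_nat_mul] at hb
    rw [Real.exp_add, mul_comm ℓ]
    push_cast at hb
    exact hb
  have hgoal : ((j : ℝ) / n) ^ j = Real.exp (j * (-ℓ)) := by
    rw [← hxdef, hxe, ← Real.exp_nat_mul]
  rw [hgoal]
  have hpos : 0 ≤ a ^ 1596 := by positivity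
  calc a ^ 1596 * b ≤ a ^ 1596 * Real.exp (ℓ * (p * j) + A * j) :=
        mul_le_mul_of_nonneg_left hb1 hpos
    _ ≤ Real.exp (1596 * ((Real.log C - ℓ) * (c * j))) * Real.exp (ℓ * (p * j) + A * j) :=
        mul_le_mul_of_nonneg_right ha2 (Real.exp_pos _).le
    _ = Real.exp (1596 * ((Real.log C - ℓ) * (c * j)) + (ℓ * (p * j) + A * j)) := by
        rw [← Real.exp_add]
    _ ≤ Real.exp (j * (-ℓ)) := by
        apply Real.exp_le_exp.mpr
        have h1 : 1596 * c * Real.log C ≤ 1596 * c * LC :=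
          mul_le_mul_of_nonneg_left hLC (by positivity)
        have h2 : (1596 * c - p - 1) * L ≤ (1596 * c - p - 1) * ℓ :=
          mul_le_mul_of_nonneg_left hℓL (by linarith)
        have h3 : 1596 * c * Real.log C + A ≤ (1596 * c - p - 1) * ℓ := by linarith
        have h4 := mul_le_mul_of_nonneg_left h3 hj'.le
        nlinarith

/-- The high regime. -/
lemma term_high (hγ : γ ≤ 1596 * cA - p * L - A)
    (n : ℝ) (hn : 0 < n) (j : ℕ) (hj : 0 < j) (a b : ℝ) (ha0 : 0 ≤ a)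
    (ha : a ≤ Real.exp (-(cA * j)))
    (hb : b ≤ (n / j) ^ (p * j) * Real.exp (A * j))
    (hx : Real.exp (-L) ≤ (j : ℝ) / n) :
    a ^ 1596 * b ≤ Real.exp (-(γ * j)) := by
  have hj' : (0 : ℝ) < j := by exact_mod_cast hj
  set x : ℝ := (j : ℝ) / n with hxdef
  have hx0 : 0 < x := by positivity
  set ℓ : ℝ := -Real.log x with hℓ
  have hℓL : ℓ ≤ L := by
    have : -L ≤ Real.log x := by
      rwa [Real.le_log_iff_exp_le hx0]
    rw [hℓ]; linarith
  have hxe : x = Real.exp (-ℓ) := by rw [hℓ, neg_neg, Real.exp_log hx0]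
  have hnj : n / j = Real.exp ℓ := by
    have : n / j = x⁻¹ := by rw [hxdef, inv_div]
    rw [this, hxe, Real.exp_neg, inv_inv]
  have ha2 : a ^ 1596 ≤ Real.exp (1596 * (-(cA * j))) := by
    have := pow_le_pow_left₀ ha0 ha 1596
    rwa [← Real.exp_nat_mul] at this
  have hb1 : b ≤ Real.exp (ℓ * (p * j) + A * j) := by
    rw [hnj, ← Real.exp_nat_mul] at hb
    rw [Real.exp_add, mul_comm ℓ]
    push_cast at hb
    exact hb
  have hpos : 0 ≤ a ^ 1596 := by positivity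
  calc a ^ 1596 * b ≤ a ^ 1596 * Real.exp (ℓ * (p * j) + A * j) :=
        mul_le_mul_of_nonneg_left hb1 hpos
    _ ≤ Real.exp (1596 * (-(cA * j))) * Real.exp (ℓ * (p * j) + A * j) :=
        mul_le_mul_of_nonneg_right ha2 (Real.exp_pos _).le
    _ = Real.exp (1596 * (-(cA * j)) + (ℓ * (p * j) + A * j)) := by
        rw [← Real.exp_add]
    _ ≤ Real.exp (-(γ * j)) := by
        apply Real.exp_le_exp.mpr
        have h1 : ℓ * p ≤ L * p := mul_le_mul_of_nonneg_right hℓL (by positivity)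
        have h2 : γ * j ≤ (1596 * cA - p * L - A) * j := mul_le_mul_of_nonneg_right hγ hj'.le
        have h3 : ℓ * p * j ≤ L * p * j := mul_le_mul_of_nonneg_right h1 hj'.le
        nlinarith

/-- **Assembly numerics.**  All constants free: `cA` Theorem A, `(κ, C, c)` low potential,
`(p, A)` band.  `L` is the logarithm of the inverse of the threshold density, `LC` an upper bound
of `log C`. -/
theorem hlim_of_bounds
    (hκ0 : 0 ≤ κ) (hκ1 : κ ≤ 1) (hC : 0 < C) (hLC : Real.log C ≤ LC) (hc : 0 ≤ c)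
    (hL1 : 1 ≤ L) (hLLC : LC ≤ L) (hβ : (p : ℝ) + 1 ≤ 1596 * c)
    (hN2 : 1596 * c * LC + A ≤ (1596 * c - p - 1) * L)
    (hγ0 : 0 < γ) (hγ : γ ≤ 1596 * cA - p * L - A)
    (a b : ℕ → ℕ → ℝ)
    (ha0 : ∀ D k, 0 ≤ a D k) (hb0 : ∀ D k, 0 ≤ b D k)
    (ha1 : ∀ D, a D 0 = 0)
    (haA : ∀ D k, a D k ≤ Real.exp (-(cA * (k + 1 : ℕ))))
    (haL : ∀ D k, 1 ≤ k → C * (k + 1 : ℕ) < (2 : ℝ) ^ D →
      a D k ≤ κ * (C * (k + 1 : ℕ) / (2 : ℝ) ^ D) ^ (c * (k + 1 : ℕ)))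
    (hb : ∀ D k, k + 1 ≤ 2 ^ D →
      b D k ≤ ((2 : ℝ) ^ D / (k + 1 : ℕ)) ^ (p * (k + 1)) * Real.exp (A * (k + 1 : ℕ))) :
    Tendsto (fun D : ℕ => ∑ k ∈ range (2 ^ (D + 1)), (a (D + 1) k) ^ 1596 * b (D + 1) k)
      atTop (𝓝 0) := by
  set δ : ℝ := Real.exp (-L) with hδ
  have hδ0 : 0 < δ := Real.exp_pos _
  have hδ2 : δ ≤ 1 / 2 := by
    have h1 : 2 ≤ Real.exp L := by
      have := Real.add_one_le_exp L
      linarith
    rw [hδ, Real.exp_neg, one_div]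
    exact inv_anti₀ (by norm_num) h1
  have hδC : δ * C ≤ 1 := by
    have h1 : Real.log C ≤ L := hLC.trans hLLC
    have h2 : C ≤ Real.exp L := (Real.log_le_iff_le_exp hC).mp h1
    rw [hδ, Real.exp_neg]
    rw [inv_mul_le_iff₀ (Real.exp_pos _)]
    linarith
  set ε : ℝ := γ * δ with hε
  have hε0 : 0 < ε := by positivity
  have key : ∀ D : ℕ, ∀ k ∈ range (2 ^ (D + 1)), (a (D + 1) k) ^ 1596 * b (D + 1) k
      ≤ 8 / ((2 : ℝ) ^ (D + 1)) ^ 2 + Real.exp (-(ε * (2 : ℝ) ^ (D + 1))) := by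
    intro D k hk
    have hk' : k + 1 ≤ 2 ^ (D + 1) := mem_range.mp hk
    set n : ℝ := (2 : ℝ) ^ (D + 1) with hn
    have hn0 : 0 < n := by positivity
    have hfirst : 0 ≤ 8 / n ^ 2 := by positivity
    have hsecond : 0 ≤ Real.exp (-(ε * n)) := (Real.exp_pos _).le
    rcases Nat.eq_zero_or_pos k with rfl | hk1
    · rw [ha1]
      simp only [ne_eq, OfNat.ofNat_ne_zero, not_false_eq_true, zero_pow, zero_mul]
      positivity
    have hbk := hb (D + 1) k hk'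
    have hj : 0 < k + 1 := Nat.succ_pos k
    by_cases hreg : Real.exp (-L) > ((k + 1 : ℕ) : ℝ) / n
    · -- low
      have hCj : C * (k + 1 : ℕ) < n := by
        rw [gt_iff_lt, div_lt_iff₀ hn0] at hreg
        have h1 : ((k + 1 : ℕ) : ℝ) < δ * n := hreg
        have h2 : C * ((k + 1 : ℕ) : ℝ) < C * (δ * n) := mul_lt_mul_of_pos_left h1 hC
        have h3 : C * (δ * n) = (δ * C) * n := by ring
        nlinarith
      have h1 := term_low c κ C A L LC p hκ0 hκ1 hC hLC hc hN2 hβ n hn0 (k + 1) hj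
        (a (D + 1) k) (b (D + 1) k) (ha0 _ _) (haL (D + 1) k hk1 hCj) hbk hreg
      have h2 : ((k + 1 : ℕ) : ℝ) / n ≤ 1 / 2 := by
        have : ((k + 1 : ℕ) : ℝ) / n < δ := hreg
        linarith
      have h3 := pow_ratio_le n hn0 (k + 1) (by omega) h2
      linarith
    · -- high
      push_neg at hreg
      have h1 := term_high cA A L γ p hγ n hn0 (k + 1) hj (a (D + 1) k) (b (D + 1) k)
        (ha0 _ _) (haA (D + 1) k) hbk hreg
      have h2 : δ * n ≤ ((k + 1 : ℕ) : ℝ) := by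
        rwa [le_div_iff₀ hn0] at hreg
      have h3 : Real.exp (-(γ * ((k + 1 : ℕ) : ℝ))) ≤ Real.exp (-(ε * n)) := by
        apply Real.exp_le_exp.mpr
        have : γ * (δ * n) ≤ γ * ((k + 1 : ℕ) : ℝ) := mul_le_mul_of_nonneg_left h2 hγ0.le
        rw [hε]
        nlinarith
      linarith
  have hlim := tendsto_bound ε hε0
  refine squeeze_zero (fun D => ?_) (fun D => ?_) hlim
  · exact Finset.sum_nonneg fun k _ => mul_nonneg (pow_nonneg (ha0 _ _) _) (hb0 _ _)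
  · refine (Finset.sum_le_card_nsmul _ _ _ (key D)).trans ?_
    rw [card_range, nsmul_eq_mul]
    push_cast
    have hn0 : (0 : ℝ) < 2 ^ (D + 1) := by positivity
    have h8 : ((2 : ℝ) ^ (D + 1)) * (8 / ((2 : ℝ) ^ (D + 1)) ^ 2) = 8 / (2 : ℝ) ^ (D + 1) := by
      field_simp
    rw [mul_add, h8]

end Main

/-- `C(n,j) ≤ (e n/j)^j`, as a bound for the band. -/
lemma choose_le (n j : ℕ) (hj : 0 < j) :
    (n.choose j : ℝ) ≤ ((n : ℝ) / j) ^ j * Real.exp j := by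
  have hj' : (0 : ℝ) < j := by exact_mod_cast hj
  have h1 : (n.choose j : ℝ) ≤ (n : ℝ) ^ j / (j.factorial : ℝ) := Nat.choose_le_pow_div j n
  have h2 : (j : ℝ) ^ j / (j.factorial : ℝ) ≤ Real.exp j := by
    have := Real.pow_div_factorial_le_exp (j : ℝ) hj'.le j
    exact this
  have hf : (0 : ℝ) < j.factorial := by exact_mod_cast Nat.factorial_pos j
  calc (n.choose j : ℝ) ≤ (n : ℝ) ^ j / (j.factorial : ℝ) := h1
    _ = ((n : ℝ) / j) ^ j * ((j : ℝ) ^ j / (j.factorial : ℝ)) := by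
        rw [div_pow]; field_simp
    _ ≤ _ := mul_le_mul_of_nonneg_left h2 (by positivity)

end Crest.Agent.Lib.Thorp.Hlim
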